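import Mathlib

/-!
First and second order perturbation lemmas for real quadratic forms (problem P370).

`H = L² A + L V₁ + V₂`, where `A ≥ 0` vanishes on the range of the orthogonal projection `P` and is
`≥ 1` on its complement, and `P V₁ P = 0`.  The bottom of the spectrum of `H` is, up to `O(1/L)`,
that of `P (V₂ - V₁ A⁻¹ V₁) P`.
-/

namespace Vale.Agent.P370.H841

open scoped RealInnerProductSpace

variable {E : Type*} [NormedAddCommGroup E] [InnerProductSpace ℝ E]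

/-- `a` is a lower bound of the quadratic form of `H`. -/
def LowerBd (H : E →ₗ[ℝ] E) (a : ℝ) : Prop := ∀ ψ : E, a * ‖ψ‖ ^ 2 ≤ ⟪ψ, H ψ⟫

/-- the quadratic form of `H` takes a value `≤ b` at a normalised vector. -/
def UpperBd (H : E →ₗ[ℝ] E) (b : ℝ) : Prop := ∃ ψ : E, ψ ≠ 0 ∧ ⟪ψ, H ψ⟫ ≤ b * ‖ψ‖ ^ 2

/-- Orthogonal projection (as a linear map): symmetric and idempotent. -/
structure IsOrtho (P : E →ₗ[ℝ] E) : Prop where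
  symm : ∀ x y, ⟪P x, y⟫ = ⟪x, P y⟫
  idem : ∀ x, P (P x) = P x

/-- `A` is symmetric, vanishes on the range of `P`, and is at least `1` on its complement. -/
structure IsGapped (A P : E →ₗ[ℝ] E) : Prop where
  symm : ∀ x y, ⟪A x, y⟫ = ⟪x, A y⟫
  ker : ∀ x, A (P x) = 0
  gap : ∀ x, ‖x - P x‖ ^ 2 ≤ ⟪x, A x⟫

/-- First order: `H = D A + V`. -/
theorem firstOrder_lower {A P V : E →ₗ[ℝ] E} (hP : IsOrtho P) (hA : IsGapped A P)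
    (hVs : ∀ x y, ⟪V x, y⟫ = ⟪x, V y⟫)
    {v D a : ℝ} (hv : ∀ x, ‖V x‖ ≤ v * ‖x‖) (ha : |a| ≤ v) (hD : 4 * v ≤ D) (hD0 : 0 < D)
    (h : ∀ x, P x = x → a * ‖x‖ ^ 2 ≤ ⟪x, V x⟫) :
    LowerBd (D • A + V) (a - 2 * v ^ 2 / D) := by
  intro ψ
  have hv0 : 0 ≤ v := (abs_nonneg a).trans ha
  set p : E := P ψ with hp
  set q : E := ψ - P ψ with hq
  have hψ : ψ = p + q := by simp [hp, hq]
  have hpq : ⟪p, q⟫ = 0 := by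
    simp only [hp, hq, inner_sub_right]
    rw [hP.symm, hP.symm, hP.idem, sub_self]
  have hn : ‖ψ‖ ^ 2 = ‖p‖ ^ 2 + ‖q‖ ^ 2 := by
    have := norm_add_sq_real p q
    rw [← hψ, hpq] at this
    linarith
  have hAψ : ‖q‖ ^ 2 ≤ ⟪ψ, A ψ⟫ := hA.gap ψ
  have h1 := h p (hP.idem ψ)
  have hVpq : |⟪p, V q⟫| ≤ v * (‖p‖ * ‖q‖) := by
    calc |⟪p, V q⟫| ≤ ‖p‖ * ‖V q‖ := abs_real_inner_le_norm _ _
      _ ≤ ‖p‖ * (v * ‖q‖) := by gcongr; exact hv q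
      _ = v * (‖p‖ * ‖q‖) := by ring
  have hVqq : |⟪q, V q⟫| ≤ v * ‖q‖ ^ 2 := by
    calc |⟪q, V q⟫| ≤ ‖q‖ * ‖V q‖ := abs_real_inner_le_norm _ _
      _ ≤ ‖q‖ * (v * ‖q‖) := by gcongr; exact hv q
      _ = v * ‖q‖ ^ 2 := by ring
  have hVe : ⟪ψ, V ψ⟫ = ⟪p, V p⟫ + 2 * ⟪p, V q⟫ + ⟪q, V q⟫ := by
    rw [hψ, map_add, inner_add_left, inner_add_right, inner_add_right, ← hVs q p,
      real_inner_comm (V q) p |>.symm]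
    ring
  have hH : ⟪ψ, (D • A + V) ψ⟫ = D * ⟪ψ, A ψ⟫ + ⟪ψ, V ψ⟫ := by
    simp [inner_add_right, inner_smul_right]
  rw [hH, hVe, hn]
  have e1 := abs_le.mp hVpq
  have e2 := abs_le.mp hVqq
  have e3 := abs_le.mp ha
  have hk : D * ‖q‖ ^ 2 ≤ D * ⟪ψ, A ψ⟫ := by gcongr
  -- D/2 ‖q‖² - 2 v ‖p‖‖q‖ + 2 v²/D ‖p‖² ≥ 0
  have hsq : 0 ≤ D / 2 * (‖q‖ - 2 * v / D * ‖p‖) ^ 2 := by positivity
  have hexp : D / 2 * (‖q‖ - 2 * v / D * ‖p‖) ^ 2 =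
      D / 2 * ‖q‖ ^ 2 - 2 * v * (‖p‖ * ‖q‖) + 2 * v ^ 2 / D * ‖p‖ ^ 2 := by
    field_simp
    ring
  rw [hexp] at hsq
  have hq2 : 0 ≤ ‖q‖ ^ 2 := by positivity
  have hc : 0 ≤ 2 * v ^ 2 / D := by positivity
  have h2 : (a - 2 * v ^ 2 / D) * (‖p‖ ^ 2 + ‖q‖ ^ 2) ≤
      a * ‖p‖ ^ 2 - 2 * v ^ 2 / D * ‖p‖ ^ 2 + v * ‖q‖ ^ 2 := by
    nlinarith [mul_nonneg hc hq2, mul_nonneg (sub_nonneg.2 e3.2) hq2]
  nlinarith [mul_nonneg (sub_nonneg.2 hD) hq2]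

/-- First order, upper bound. -/
theorem firstOrder_upper {A P V : E →ₗ[ℝ] E} (hA : IsGapped A P) {D b : ℝ}
    (h : ∃ x, P x = x ∧ x ≠ 0 ∧ ⟪x, V x⟫ ≤ b * ‖x‖ ^ 2) :
    UpperBd (D • A + V) b := by
  obtain ⟨x, hx, hx0, hb⟩ := h
  refine ⟨x, hx0, ?_⟩
  have : A x = 0 := by rw [← hx, hA.ker]
  simpa [inner_add_right, inner_smul_right, this] using hb

/-- Second order: `R` inverts `A` on the vectors `V₁ p`. -/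
structure IsResponse (A P V₁ R : E →ₗ[ℝ] E) : Prop where
  /-- `P V₁ P = 0` -/
  off : ∀ p, P p = p → P (V₁ p) = 0
  eq : ∀ p, P p = p → A (R (V₁ p)) = V₁ p
  perp : ∀ p, P p = p → P (R (V₁ p)) = 0

lemma IsResponse.norm_le {A P V₁ R : E →ₗ[ℝ] E} (hA : IsGapped A P)
    (hR : IsResponse A P V₁ R) {p : E} (hp : P p = p) : ‖R (V₁ p)‖ ≤ ‖V₁ p‖ := by
  set x := R (V₁ p) with hx
  have h1 : ‖x‖ ^ 2 ≤ ⟪x, A x⟫ := by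
    have := hA.gap x
    rwa [hR.perp p hp, sub_zero] at this
  have h2 : ⟪x, A x⟫ ≤ ‖x‖ * ‖V₁ p‖ := by
    rw [hx, hR.eq p hp]
    exact real_inner_le_norm _ _
  by_contra hlt
  push Not at hlt
  have h0 : 0 ≤ ‖V₁ p‖ := norm_nonneg _
  have h3 : 0 < ‖x‖ := lt_of_le_of_lt h0 hlt
  nlinarith [mul_lt_mul_of_pos_left hlt h3]

/-- Scalar part of the lower bound. -/
lemma scalar_lower {v L a p q q' : ℝ} (hv : 1 ≤ v) (ha : a ≤ 2 * v ^ 2) (hL : 16 * v ^ 2 ≤ L)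
    (hp : 0 ≤ p) (hq : 0 ≤ q) (hqn : q ≤ q' + v * p / L) :
    (a - 8 * v ^ 3 / L) * (p ^ 2 + q ^ 2) ≤
      L ^ 2 * q' ^ 2 + a * p ^ 2 - L * (v * q ^ 2) - 2 * (v * (p * q)) - v * q ^ 2 := by
  have hv0 : 0 ≤ v := by linarith
  have hL16 : 16 ≤ L := by nlinarith
  have hL0 : 0 < L := by linarith
  set s : ℝ := p / L with hs
  have hps : p = L * s := by rw [hs]; field_simp
  have hs0 : 0 ≤ s := by positivity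
  have hqn' : q ≤ q' + v * s := by rw [hs]; calc q ≤ _ := hqn
                                        _ = _ := by ring
  -- q² ≤ 2 q'² + 2 v² s²
  have hqsq : q ^ 2 ≤ 2 * q' ^ 2 + 2 * v ^ 2 * s ^ 2 := by
    have h1 : q ^ 2 ≤ (q' + v * s) ^ 2 := by gcongr
    nlinarith [sq_nonneg (q' - v * s)]
  -- 2 s q ≤ ...
  have hpq : 2 * (s * q) ≤ q' ^ 2 + s ^ 2 + 2 * v * s ^ 2 := by
    have h1 : s * q ≤ s * (q' + v * s) := by gcongr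
    nlinarith [sq_nonneg (q' - s)]
  have hs2 : 0 ≤ s ^ 2 := by positivity
  have hq2 : 0 ≤ q' ^ 2 := by positivity
  have hdiv : 8 * v ^ 3 / L * (p ^ 2 + q ^ 2) ≥ 8 * v ^ 3 * L * s ^ 2 := by
    have h1 : 8 * v ^ 3 / L * p ^ 2 = 8 * v ^ 3 * L * s ^ 2 := by rw [hps]; field_simp
    have h2 : 0 ≤ 8 * v ^ 3 / L * q ^ 2 := by positivity
    nlinarith
  have haq : a * q ^ 2 ≤ 2 * v ^ 2 * (2 * q' ^ 2 + 2 * v ^ 2 * s ^ 2) := by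
    calc a * q ^ 2 ≤ 2 * v ^ 2 * q ^ 2 := by gcongr
      _ ≤ _ := by gcongr
  have hLv : (L * v + v) * q ^ 2 ≤ (L * v + v) * (2 * q' ^ 2 + 2 * v ^ 2 * s ^ 2) := by gcongr
  have hvpq : 2 * (v * (p * q)) ≤ v * L * (q' ^ 2 + s ^ 2 + 2 * v * s ^ 2) := by
    have : 2 * (v * (p * q)) = v * L * (2 * (s * q)) := by rw [hps]; ring
    rw [this]; gcongr
  -- coefficients
  have k1 : 0 ≤ (L ^ 2 - 3 * v * L - 2 * v - 4 * v ^ 2) * q' ^ 2 := by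
    apply mul_nonneg _ hq2
    nlinarith [mul_nonneg hv0 (sub_nonneg.2 hv), mul_nonneg (sub_nonneg.2 hL) hL0.le]
  have k2 : 0 ≤ (8 * v ^ 3 * L - (2 * v ^ 3 * L + 2 * v ^ 3 + v * L + 2 * v ^ 2 * L + 4 * v ^ 4)) *
      s ^ 2 := by
    apply mul_nonneg _ hs2
    have a1 : v * L ≤ v ^ 3 * L := by
      have : v ≤ v ^ 3 := by nlinarith [mul_nonneg (mul_nonneg hv0 hv0) (sub_nonneg.2 hv)]
      gcongr
    have a2 : v ^ 2 * L ≤ v ^ 3 * L := by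
      have : v ^ 2 ≤ v ^ 3 := by nlinarith [mul_nonneg (mul_nonneg hv0 hv0) (sub_nonneg.2 hv)]
      gcongr
    have a3 : 4 * v ^ 4 ≤ v ^ 3 * L := by
      have : 4 * v ≤ L := by nlinarith
      calc 4 * v ^ 4 = v ^ 3 * (4 * v) := by ring
        _ ≤ v ^ 3 * L := by gcongr
    have a4 : 2 * v ^ 3 ≤ v ^ 3 * L := by
      have : (2:ℝ) ≤ L := by linarith
      calc 2 * v ^ 3 = v ^ 3 * 2 := by ring
        _ ≤ v ^ 3 * L := by gcongr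
    have a5 : 0 ≤ v ^ 3 * L := by positivity
    linarith
  have hexp : (a - 8 * v ^ 3 / L) * (p ^ 2 + q ^ 2) = a * p ^ 2 + a * q ^ 2 -
      8 * v ^ 3 / L * (p ^ 2 + q ^ 2) := by ring
  rw [hexp]
  nlinarith

/-- The form of `H` after completing the square. -/
lemma form_eq {A P V₁ V₂ R : E →ₗ[ℝ] E} (hP : IsOrtho P) (hA : IsGapped A P)
    (hR : IsResponse A P V₁ R)
    (hV₁s : ∀ x y, ⟪V₁ x, y⟫ = ⟪x, V₁ y⟫) (hV₂s : ∀ x y, ⟪V₂ x, y⟫ = ⟪x, V₂ y⟫)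
    {L : ℝ} (hL0 : L ≠ 0) {p q : E} (hPp : P p = p) :
    ⟪p + q, (L ^ 2 • A + L • V₁ + V₂) (p + q)⟫ =
      L ^ 2 * ⟪q + L⁻¹ • R (V₁ p), A (q + L⁻¹ • R (V₁ p))⟫ - ⟪R (V₁ p), V₁ p⟫ +
        L * ⟪q, V₁ q⟫ + (⟪p, V₂ p⟫ + 2 * ⟪p, V₂ q⟫ + ⟪q, V₂ q⟫) := by
  set x : E := R (V₁ p) with hx
  have hAx : A x = V₁ p := hR.eq p hPp
  have hAp : A p = 0 := by rw [← hPp, hA.ker]
  have hV₁pp : ⟪p, V₁ p⟫ = 0 := by
    conv_lhs => rw [← hPp]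
    rw [hP.symm, hPp, hR.off p hPp, inner_zero_right]
  have e1 : ⟪p, A q⟫ = 0 := by rw [← hA.symm, hAp, inner_zero_left]
  have e2 : ⟪x, A q⟫ = ⟪q, V₁ p⟫ := by rw [← hA.symm, hAx, real_inner_comm]
  have e3 : ⟪p, V₁ q⟫ = ⟪q, V₁ p⟫ := by rw [← hV₁s, real_inner_comm]
  have e4 : ⟪q, V₂ p⟫ = ⟪p, V₂ q⟫ := by rw [← hV₂s, real_inner_comm]
  have e5 : (L ^ 2 • A + L • V₁ + V₂) (p + q) =
      L ^ 2 • A q + L • V₁ p + L • V₁ q + V₂ p + V₂ q := by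
    simp only [LinearMap.add_apply, LinearMap.smul_apply, map_add, hAp]
    simp only [smul_zero, zero_add]
    abel
  have e6 : A (q + L⁻¹ • x) = A q + L⁻¹ • V₁ p := by rw [map_add, map_smul, hAx]
  rw [e5, e6]
  simp only [inner_add_left, inner_add_right, inner_smul_left, inner_smul_right, conj_trivial,
    e1, e2, e3, e4, hV₁pp]
  field_simp
  ring

/-- Second order: lower bound for `H = L² A + L V₁ + V₂`. -/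
theorem secondOrder_lower {A P V₁ V₂ R : E →ₗ[ℝ] E} (hP : IsOrtho P) (hA : IsGapped A P)
    (hR : IsResponse A P V₁ R)
    (hV₁s : ∀ x y, ⟪V₁ x, y⟫ = ⟪x, V₁ y⟫) (hV₂s : ∀ x y, ⟪V₂ x, y⟫ = ⟪x, V₂ y⟫)
    {v L a : ℝ} (hv₁ : ∀ x, ‖V₁ x‖ ≤ v * ‖x‖) (hv₂ : ∀ x, ‖V₂ x‖ ≤ v * ‖x‖) (hv : 1 ≤ v)
    (ha : a ≤ 2 * v ^ 2) (hL : 16 * v ^ 2 ≤ L)
    (h : ∀ p, P p = p → a * ‖p‖ ^ 2 ≤ ⟪p, V₂ p⟫ - ⟪V₁ p, R (V₁ p)⟫) :
    LowerBd (L ^ 2 • A + L • V₁ + V₂) (a - 8 * v ^ 3 / L) := by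
  intro ψ
  have hv0 : 0 ≤ v := by linarith
  have hL16 : 16 ≤ L := by nlinarith
  have hL0 : 0 < L := by linarith
  set p : E := P ψ with hp
  set q : E := ψ - P ψ with hq
  have hPp : P p = p := hP.idem ψ
  have hψ : ψ = p + q := by simp [hp, hq]
  have hPq : P q = 0 := by simp [hq, hP.idem]
  have hpq : ⟪p, q⟫ = 0 := by
    rw [← hPp, hP.symm, hPq, inner_zero_right]
  have hn : ‖ψ‖ ^ 2 = ‖p‖ ^ 2 + ‖q‖ ^ 2 := by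
    have := norm_add_sq_real p q
    rw [← hψ, hpq] at this
    linarith
  have hPx : P (R (V₁ p)) = 0 := hR.perp p hPp
  have hxn : ‖R (V₁ p)‖ ≤ v * ‖p‖ := (hR.norm_le hA hPp).trans (hv₁ p)
  have hAq' : ‖q + L⁻¹ • R (V₁ p)‖ ^ 2 ≤
      ⟪q + L⁻¹ • R (V₁ p), A (q + L⁻¹ • R (V₁ p))⟫ := by
    have := hA.gap (q + L⁻¹ • R (V₁ p))
    rwa [map_add, map_smul, hPq, hPx, smul_zero, add_zero, sub_zero] at this
  have hqn : ‖q‖ ≤ ‖q + L⁻¹ • R (V₁ p)‖ + v * ‖p‖ / L := by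
    have h1 : q = (q + L⁻¹ • R (V₁ p)) - L⁻¹ • R (V₁ p) := by simp
    have h2 : ‖L⁻¹ • R (V₁ p)‖ ≤ v * ‖p‖ / L := by
      rw [norm_smul, norm_inv, Real.norm_of_nonneg hL0.le, inv_mul_eq_div]
      gcongr
    calc ‖q‖ = ‖(q + L⁻¹ • R (V₁ p)) - L⁻¹ • R (V₁ p)‖ := by rw [← h1]
      _ ≤ ‖q + L⁻¹ • R (V₁ p)‖ + ‖L⁻¹ • R (V₁ p)‖ := norm_sub_le _ _
      _ ≤ _ := by gcongr
  have hV₁qq : -(v * ‖q‖ ^ 2) ≤ ⟪q, V₁ q⟫ := by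
    have : |⟪q, V₁ q⟫| ≤ v * ‖q‖ ^ 2 := by
      calc |⟪q, V₁ q⟫| ≤ ‖q‖ * ‖V₁ q‖ := abs_real_inner_le_norm _ _
        _ ≤ ‖q‖ * (v * ‖q‖) := by gcongr; exact hv₁ q
        _ = v * ‖q‖ ^ 2 := by ring
    exact (abs_le.mp this).1
  have hV₂qq : -(v * ‖q‖ ^ 2) ≤ ⟪q, V₂ q⟫ := by
    have : |⟪q, V₂ q⟫| ≤ v * ‖q‖ ^ 2 := by
      calc |⟪q, V₂ q⟫| ≤ ‖q‖ * ‖V₂ q‖ := abs_real_inner_le_norm _ _
        _ ≤ ‖q‖ * (v * ‖q‖) := by gcongr; exact hv₂ q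
        _ = v * ‖q‖ ^ 2 := by ring
    exact (abs_le.mp this).1
  have hV₂pq : -(v * (‖p‖ * ‖q‖)) ≤ ⟪p, V₂ q⟫ := by
    have : |⟪p, V₂ q⟫| ≤ v * (‖p‖ * ‖q‖) := by
      calc |⟪p, V₂ q⟫| ≤ ‖p‖ * ‖V₂ q‖ := abs_real_inner_le_norm _ _
        _ ≤ ‖p‖ * (v * ‖q‖) := by gcongr; exact hv₂ q
        _ = v * (‖p‖ * ‖q‖) := by ring
    exact (abs_le.mp this).1
  have hmain := h p hPp
  rw [real_inner_comm (R (V₁ p)) (V₁ p)] at hmain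
  have hsc := scalar_lower hv ha hL (norm_nonneg p) (norm_nonneg q) hqn
  have hAL : L ^ 2 * ‖q + L⁻¹ • R (V₁ p)‖ ^ 2 ≤
      L ^ 2 * ⟪q + L⁻¹ • R (V₁ p), A (q + L⁻¹ • R (V₁ p))⟫ := by gcongr
  have hLV : -(L * (v * ‖q‖ ^ 2)) ≤ L * ⟪q, V₁ q⟫ := by
    have := mul_le_mul_of_nonneg_left hV₁qq hL0.le
    linarith
  have hform := form_eq hP hA hR hV₁s hV₂s hL0.ne' hPp (q := q)
  rw [← hψ] at hform
  rw [hform, hn]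
  linarith

/-- Scalar part of the upper bound. -/
lemma scalar_upper {v L b p x : ℝ} (hv : 1 ≤ v) (hb : -(2 * v ^ 2) ≤ b) (hL : 16 * v ^ 2 ≤ L)
    (hp : 0 ≤ p) (hx : 0 ≤ x) (hxn : x ≤ v * p) :
    b * p ^ 2 + L⁻¹ * (v * x ^ 2) + 2 * L⁻¹ * (v * (p * x)) + L⁻¹ ^ 2 * (v * x ^ 2) ≤
      (b + 5 * v ^ 3 / L) * (p ^ 2 + x ^ 2 / L ^ 2) := by
  have hv0 : 0 ≤ v := by linarith
  have hL16 : 16 ≤ L := by nlinarith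
  have hL0 : 0 < L := by linarith
  set s := L⁻¹ with hs
  have hs0 : 0 < s := by positivity
  have hs1 : s ≤ 1 := by rw [hs, inv_le_one₀ hL0]; linarith
  have hsv : 16 * v ^ 2 * s ≤ 1 := by
    calc 16 * v ^ 2 * s ≤ L * s := by gcongr
      _ = 1 := by rw [hs]; field_simp
  have e1 : 5 * v ^ 3 / L = 5 * v ^ 3 * s := by rw [hs]; ring
  have e2 : x ^ 2 / L ^ 2 = x ^ 2 * s ^ 2 := by rw [hs]; field_simp
  rw [e1, e2]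
  have hx2 : x ^ 2 ≤ v ^ 2 * p ^ 2 := by
    calc x ^ 2 ≤ (v * p) ^ 2 := by gcongr
      _ = _ := by ring
  have hpx : p * x ≤ v * p ^ 2 := by
    calc p * x ≤ p * (v * p) := by gcongr
      _ = _ := by ring
  have f1 : s * (v * x ^ 2) ≤ s * (v ^ 3 * p ^ 2) := by
    calc s * (v * x ^ 2) ≤ s * (v * (v ^ 2 * p ^ 2)) := by gcongr
      _ = _ := by ring
  have hv23 : v ^ 2 ≤ v ^ 3 := by nlinarith [mul_nonneg (mul_nonneg hv0 hv0) (sub_nonneg.2 hv)]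
  have f2 : 2 * s * (v * (p * x)) ≤ 2 * (s * (v ^ 3 * p ^ 2)) := by
    calc 2 * s * (v * (p * x)) ≤ 2 * s * (v * (v * p ^ 2)) := by gcongr
      _ = 2 * (s * (v ^ 2 * p ^ 2)) := by ring
      _ ≤ _ := by gcongr
  have f3 : s ^ 2 * (v * x ^ 2) ≤ s * (v ^ 3 * p ^ 2) := by
    have : s ^ 2 ≤ s := by nlinarith
    calc s ^ 2 * (v * x ^ 2) ≤ s * (v * x ^ 2) := by gcongr
      _ ≤ _ := f1
  have f4 : -b * (x ^ 2 * s ^ 2) ≤ s * (v ^ 3 * p ^ 2) := by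
    have h1 : -b ≤ 2 * v ^ 2 := by linarith
    have h2 : 2 * v * s ≤ 1 := by nlinarith
    calc -b * (x ^ 2 * s ^ 2) ≤ 2 * v ^ 2 * (x ^ 2 * s ^ 2) := by gcongr
      _ ≤ 2 * v ^ 2 * (v ^ 2 * p ^ 2 * s ^ 2) := by gcongr
      _ = (2 * v * s) * (s * (v ^ 3 * p ^ 2)) := by ring
      _ ≤ 1 * (s * (v ^ 3 * p ^ 2)) := by gcongr
      _ = _ := one_mul _
  have f5 : 0 ≤ 5 * v ^ 3 * s * (x ^ 2 * s ^ 2) := by positivity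
  nlinarith

/-- Second order: upper bound for `H = L² A + L V₁ + V₂`. -/
theorem secondOrder_upper {A P V₁ V₂ R : E →ₗ[ℝ] E} (hP : IsOrtho P) (hA : IsGapped A P)
    (hR : IsResponse A P V₁ R)
    (hV₁s : ∀ x y, ⟪V₁ x, y⟫ = ⟪x, V₁ y⟫) (hV₂s : ∀ x y, ⟪V₂ x, y⟫ = ⟪x, V₂ y⟫)
    {v L b : ℝ} (hv₁ : ∀ x, ‖V₁ x‖ ≤ v * ‖x‖) (hv₂ : ∀ x, ‖V₂ x‖ ≤ v * ‖x‖) (hv : 1 ≤ v)
    (hb : -(2 * v ^ 2) ≤ b) (hL : 16 * v ^ 2 ≤ L)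
    (h : ∃ p, P p = p ∧ p ≠ 0 ∧ ⟪p, V₂ p⟫ - ⟪V₁ p, R (V₁ p)⟫ ≤ b * ‖p‖ ^ 2) :
    UpperBd (L ^ 2 • A + L • V₁ + V₂) (b + 5 * v ^ 3 / L) := by
  obtain ⟨p, hPp, hp0, hbp⟩ := h
  have hv0 : 0 ≤ v := by linarith
  have hL16 : 16 ≤ L := by nlinarith
  have hL0 : 0 < L := by linarith
  have hPx : P (R (V₁ p)) = 0 := hR.perp p hPp
  have hxn : ‖R (V₁ p)‖ ≤ v * ‖p‖ := (hR.norm_le hA hPp).trans (hv₁ p)
  set x : E := R (V₁ p) with hx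
  have hpx : ⟪p, x⟫ = 0 := by
    rw [← hPp, hP.symm, hPx, inner_zero_right]
  have hppos : 0 < ‖p‖ := norm_pos_iff.2 hp0
  set q : E := -(L⁻¹ • x) with hq
  have hqx : q + L⁻¹ • x = 0 := by simp [hq]
  have hnψ : ‖p + q‖ ^ 2 = ‖p‖ ^ 2 + ‖x‖ ^ 2 / L ^ 2 := by
    rw [hq, ← sub_eq_add_neg, norm_sub_sq_real, inner_smul_right, hpx, norm_smul, norm_inv,
      Real.norm_of_nonneg hL0.le]
    field_simp
    ring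
  refine ⟨p + q, ?_, ?_⟩
  · intro h0
    rw [h0, norm_zero] at hnψ
    have h1 : 0 < ‖p‖ ^ 2 := by positivity
    have h2 : 0 ≤ ‖x‖ ^ 2 / L ^ 2 := by positivity
    nlinarith
  have hform := form_eq hP hA hR hV₁s hV₂s hL0.ne' hPp (q := q)
  rw [← hx, hqx, map_zero, inner_zero_left, mul_zero, zero_sub] at hform
  rw [hform, hnψ]
  have g1 : L * ⟪q, V₁ q⟫ ≤ L⁻¹ * (v * ‖x‖ ^ 2) := by
    have h1 : ⟪q, V₁ q⟫ = L⁻¹ ^ 2 * ⟪x, V₁ x⟫ := by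
      rw [hq, map_neg, map_smul, inner_neg_neg, inner_smul_left, inner_smul_right, conj_trivial]
      ring
    have h2 : ⟪x, V₁ x⟫ ≤ v * ‖x‖ ^ 2 := by
      calc ⟪x, V₁ x⟫ ≤ ‖x‖ * ‖V₁ x‖ := real_inner_le_norm _ _
        _ ≤ ‖x‖ * (v * ‖x‖) := by gcongr; exact hv₁ x
        _ = v * ‖x‖ ^ 2 := by ring
    rw [h1]
    calc L * (L⁻¹ ^ 2 * ⟪x, V₁ x⟫) = L⁻¹ * ⟪x, V₁ x⟫ := by field_simp
      _ ≤ _ := by gcongr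
  have g2 : 2 * ⟪p, V₂ q⟫ ≤ 2 * L⁻¹ * (v * (‖p‖ * ‖x‖)) := by
    have h1 : ⟪p, V₂ q⟫ = L⁻¹ * -⟪p, V₂ x⟫ := by
      rw [hq, map_neg, map_smul, inner_neg_right, inner_smul_right]; ring
    have h2 : -⟪p, V₂ x⟫ ≤ v * (‖p‖ * ‖x‖) := by
      have : |⟪p, V₂ x⟫| ≤ v * (‖p‖ * ‖x‖) := by
        calc |⟪p, V₂ x⟫| ≤ ‖p‖ * ‖V₂ x‖ := abs_real_inner_le_norm _ _
          _ ≤ ‖p‖ * (v * ‖x‖) := by gcongr; exact hv₂ x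
          _ = v * (‖p‖ * ‖x‖) := by ring
      linarith [(abs_le.mp this).1]
    rw [h1]
    have h3 : L⁻¹ * -⟪p, V₂ x⟫ ≤ L⁻¹ * (v * (‖p‖ * ‖x‖)) := by gcongr
    linarith
  have g3 : ⟪q, V₂ q⟫ ≤ L⁻¹ ^ 2 * (v * ‖x‖ ^ 2) := by
    have h1 : ⟪q, V₂ q⟫ = L⁻¹ ^ 2 * ⟪x, V₂ x⟫ := by
      rw [hq, map_neg, map_smul, inner_neg_neg, inner_smul_left, inner_smul_right, conj_trivial]
      ring
    have h2 : ⟪x, V₂ x⟫ ≤ v * ‖x‖ ^ 2 := by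
      calc ⟪x, V₂ x⟫ ≤ ‖x‖ * ‖V₂ x‖ := real_inner_le_norm _ _
        _ ≤ ‖x‖ * (v * ‖x‖) := by gcongr; exact hv₂ x
        _ = v * ‖x‖ ^ 2 := by ring
    rw [h1]; gcongr
  rw [real_inner_comm x (V₁ p)] at hbp
  have hsc := scalar_upper hv hb hL (norm_nonneg p) (norm_nonneg x) hxn
  linarith

end Vale.Agent.P370.H841
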